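import Vale.Agent.P079.Averages.Cesaro

/-!
# P079: far averages and decompositions give the fixed point property
-/

open Vale.Agent.P079.Averages in
theorem Vale.Agent.Results.P079.FarAveragesFPP.result :
    (∀ (X : Type) [NormedAddCommGroup X] [NormedSpace ℝ X] [CompleteSpace X]
        (P : Finset ℕ → X →L[ℝ] X) (c c' : ℝ), IsDecomposition P c c' → FarAverages X c c' →
        WeakFPP X ∧ (Reflexive X → FPP X)) ∧
    (∀ (X : Type) [NormedAddCommGroup X] [NormedSpace ℝ X] [CompleteSpace X]
        (P : Finset ℕ → X →L[ℝ] X), IsDecomposition P 1 1 → WeakBanachSaks X →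
        WeakFPP X ∧ (Reflexive X → FPP X)) := by
  refine ⟨fun X _ _ _ P c c' hP h => ?_, fun X _ _ _ P hP h => ?_⟩
  · exact ⟨weakFPP_of_farAverages hP h, fun hR => fpp_of_weakFPP hR (weakFPP_of_farAverages hP h)⟩
  · exact ⟨weakFPP_of_farAverages hP (farAverages_of_weakBanachSaks h),
      fun hR => fpp_of_weakFPP hR (weakFPP_of_farAverages hP (farAverages_of_weakBanachSaks h))⟩
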